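import Vale.Agent.P141.H784.PayB

/-!
# P141, line (A), (TI): the payers of the side `b`, alive cells only

The weights vanish off the alive cells `al x1 k (ix k x2)`; then only the alive cells enter the
sums of the moves and of the losses. `NB`, `ND` are the numbers of one `x1` (stopped tree).

* `plane_dom_al`, `BM_plane_st`, `EB_plane_st` : the plane sums at all `x0`;
* `payB_ah_st`, `payB_eb_st` : the payers of the side `b`.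
-/

namespace Vale.Agent.P141.H7

set_option linter.unusedSectionVars false

open Matrix Finset
open Vale.Agent.P141.PL (Pt iv mem_iv card_iv ix ix_ix)
open Vale.Agent.P141.H420 (Tr quad_nonneg)
open Vale.Agent.P141.H103 (GW)
open Vale.Agent.P141.H652 (WT ET ET_psd HdV HdV_nonneg st ah eb eb_le)
open Vale.Agent.P141.H784 (Tie plane_dom st_near ah_le av payB_gen sum_Icc_range)

noncomputable section

variable {ι : Type*} [Fintype ι] [DecidableEq ι]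

/-- **sums over the cells near the plane**, alive cells only -/
theorem plane_dom_al {K J R : ℕ} {S S3 : ℤ} (c : ℤ) (X Y : Finset ℤ)
    {al : ℤ → ℕ → ℤ → Prop} [∀ x k, DecidablePred (al x k)]
    {f : ℕ → ℤ → ℤ → ℤ → ℤ → ℝ} {Φ : ℕ → ℤ → ℤ → ℤ → ℝ}
    (hΦ0 : ∀ x1 ∈ Y, ∀ k ∈ Icc 1 K, ∀ q x2, 0 ≤ Φ k q x1 x2)
    (hf : ∀ x1 ∈ Y, ∀ k ∈ Icc 1 K, ∀ x0 x2 m, Tie k J c x0 x1 x2 m →
      f k x0 x1 x2 m ≤ ∑ q ∈ Icc (ix k x2 - (R : ℤ)) (ix k x2 + R), Φ k q x1 x2)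
    {W : ℕ → ℤ → ℤ → ℤ → ℝ} {e : ℝ} (hW0 : ∀ k x0 x1 x2, 0 ≤ W k x0 x1 x2)
    (hWa : ∀ k ∈ Icc 1 K, ∀ x0, ∀ x1 ∈ Y, ∀ x2, ¬ al x1 k (ix k x2) → W k x0 x1 x2 = 0)
    (hW : ∀ k ∈ Icc 1 K, ∀ j x1 x2, ∑ x0 ∈ iv k j, W k x0 x1 x2 ≤ e * 2 ^ k) :
    ∑ x0 ∈ X, ∑ x1 ∈ Y, ∑ k ∈ Icc 1 K, ∑ m ∈ iv (K - k) S3,
      ∑ x2 ∈ (iv K S).filter (fun x2 => Tie k J c x0 x1 x2 m), W k x0 x1 x2 * f k x0 x1 x2 m ≤
    (2 * J + 1) * e * (2 ^ K * ∑ x1 ∈ Y, ∑ k ∈ Icc 1 K, ∑ p ∈ (iv (K - k) S).filter (al x1 k),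
      ∑ q ∈ Icc (p - (R : ℤ)) (p + R), ∑ x2 ∈ iv k p, Φ k q x1 x2) := by
  have h := plane_dom (K := K) (J := J) (R := R) (S := S) (S3 := S3) c X Y
    (f := fun k x0 x1 x2 m => if al x1 k (ix k x2) then f k x0 x1 x2 m else 0)
    (Φ := fun k q x1 x2 => if al x1 k (ix k x2) then Φ k q x1 x2 else 0)
    (fun x1 h1 k hk q x2 => by
      split_ifs
      · exact hΦ0 x1 h1 k hk q x2
      · exact le_rfl)
    (fun x1 h1 k hk x0 x2 m ht => by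
      by_cases ha : al x1 k (ix k x2)
      · simp only [if_pos ha]
        exact hf x1 h1 k hk x0 x2 m ht
      · simp only [if_neg ha, sum_const_zero]
        exact le_rfl)
    hW0 hW
  refine le_trans (le_of_eq ?_) (h.trans (le_of_eq ?_))
  · refine sum_congr rfl fun x0 _ => sum_congr rfl fun x1 h1 => sum_congr rfl fun k hk =>
      sum_congr rfl fun m _ => sum_congr rfl fun x2 _ => ?_
    by_cases ha : al x1 k (ix k x2)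
    · rw [if_pos ha]
    · rw [hWa k hk x0 x1 h1 x2 ha, zero_mul, zero_mul]
  · congr 2
    refine sum_congr rfl fun x1 _ => sum_congr rfl fun k _ => ?_
    rw [sum_filter]
    refine sum_congr rfl fun p _ => ?_
    split_ifs with ha
    · refine sum_congr rfl fun q _ => sum_congr rfl fun x2 h2 => ?_
      rw [mem_iv.1 h2, if_pos ha]
    · refine sum_eq_zero fun q _ => sum_eq_zero fun x2 h2 => ?_
      rw [mem_iv.1 h2, if_neg ha]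

section planes

variable {l : ℝ} {K J : ℕ} {S S3 : ℤ} {G Kq : ℤ → ℕ → ℤ → Matrix ι ι ℝ} {u : ℤ → ℤ → ι → ℝ}

/-- **the half differences on the slot `B`**, alive cells, all cells of `x3` within `J` of the
plane -/
theorem BM_plane_st {o : ℤ} (ho : o = 1 ∨ o = -1) (X Y : Finset ℤ)
    {al : ℤ → ℕ → ℤ → Prop} [∀ x k, DecidablePred (al x k)] {NB : ℤ → ℝ}
    (hN : ∀ x1 ∈ Y, ∑ k ∈ range K, ∑ p ∈ (iv (K - (k + 1)) S).filter (al x1 (k + 1)),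
      ∑ m ∈ Icc (p - ((J + 3 : ℕ) : ℤ)) (p + ((J + 3 : ℕ) : ℤ)), ∑ x ∈ iv (k + 1) p,
        HdV (fun k q => WT l K S (Kq x1) k q *ᵥ u x1 x) (k + 1) m ≤ NB x1)
    {W : ℕ → ℤ → ℤ → ℤ → ℝ} {e : ℝ} (he : 0 ≤ e) (hW0 : ∀ k x0 x1 x2, 0 ≤ W k x0 x1 x2)
    (hWa : ∀ k ∈ Icc 1 K, ∀ x0, ∀ x1 ∈ Y, ∀ x2, ¬ al x1 k (ix k x2) → W k x0 x1 x2 = 0)
    (hW : ∀ k ∈ Icc 1 K, ∀ j x1 x2, ∑ x0 ∈ iv k j, W k x0 x1 x2 ≤ e * 2 ^ k) :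
    ∑ x0 ∈ X, ∑ x1 ∈ Y, ∑ k ∈ Icc 1 K, ∑ m ∈ iv (K - k) S3,
      ∑ x2 ∈ (iv K S).filter (fun x2 => Tie k J (o - 2) x0 x1 x2 m), W k x0 x1 x2 *
        ((ah l K S (Kq x1) (o - 2) x0 x1 (k - 1) m *ᵥ u x1 x2) ⬝ᵥ
        (ah l K S (Kq x1) (o - 2) x0 x1 (k - 1) m *ᵥ u x1 x2)) ≤
    (2 * J + 1) * e * (2 ^ K * ∑ x1 ∈ Y, NB x1) := by
  refine (plane_dom_al (R := J + 3) (o - 2) X Y
    (f := fun k x0 x1 x2 m => (ah l K S (Kq x1) (o - 2) x0 x1 (k - 1) m *ᵥ u x1 x2) ⬝ᵥ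
        (ah l K S (Kq x1) (o - 2) x0 x1 (k - 1) m *ᵥ u x1 x2))
    (Φ := fun k q x1 x2 => HdV (fun k q => WT l K S (Kq x1) k q *ᵥ u x1 x2) k q)
    (fun x1 _ k _ q x2 => HdV_nonneg _ _ _) (fun x1 _ k hk x0 x2 m ht => ?_) hW0 hWa hW).trans ?_
  · obtain ⟨j, rfl⟩ : ∃ j, k = j + 1 := ⟨k - 1, by have := (mem_Icc.1 hk).1; omega⟩
    have hj : j < K := by have := (mem_Icc.1 hk).2; omega
    have h1 := ah_le (M := S) (l := l) (Kq x1) hj (o - 2) x0 x1 m (u x1 x2)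
    have h2 := st_near ho ht
    rw [Nat.add_sub_cancel]
    refine h1.trans (single_le_sum (f := fun q =>
      HdV (fun k q => WT l K S (Kq x1) k q *ᵥ u x1 x2) (j + 1) q)
      (fun q _ => HdV_nonneg _ _ _) ?_)
    rw [mem_Icc] at h2 ⊢
    push_cast at h2 ⊢
    omega
  · refine mul_le_mul_of_nonneg_left (mul_le_mul_of_nonneg_left (sum_le_sum fun x1 h1 => ?_)
      (by positivity)) (by positivity)
    rw [sum_Icc_range (K := K)]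
    exact hN x1 h1

/-- **the losses on the slot `B`**, alive cells, all cells of `x3` within `J` of the plane -/
theorem EB_plane_st {o : ℤ} (ho : o = 1 ∨ o = -1) (X Y : Finset ℤ)
    (hT : ∀ x1 ∈ Y, Tr l K (G x1) (Kq x1))
    {al : ℤ → ℕ → ℤ → Prop} [∀ x k, DecidablePred (al x k)] {ND : ℤ → ℝ}
    (hN : ∀ x1 ∈ Y, ∑ k ∈ range K, ∑ p ∈ (iv (K - (k + 1)) S).filter (al x1 (k + 1)),
      ∑ m ∈ Icc (p - ((J + 3 : ℕ) : ℤ)) (p + ((J + 3 : ℕ) : ℤ)), ∑ x ∈ iv (k + 1) p,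
        u x1 x ⬝ᵥ ET l K S (Kq x1) (k + 1) m *ᵥ u x1 x ≤ ND x1)
    {W : ℕ → ℤ → ℤ → ℤ → ℝ} {e : ℝ} (he : 0 ≤ e) (hW0 : ∀ k x0 x1 x2, 0 ≤ W k x0 x1 x2)
    (hWa : ∀ k ∈ Icc 1 K, ∀ x0, ∀ x1 ∈ Y, ∀ x2, ¬ al x1 k (ix k x2) → W k x0 x1 x2 = 0)
    (hW : ∀ k ∈ Icc 1 K, ∀ j x1 x2, ∑ x0 ∈ iv k j, W k x0 x1 x2 ≤ e * 2 ^ k) :
    ∑ x0 ∈ X, ∑ x1 ∈ Y, ∑ k ∈ Icc 1 K, ∑ m ∈ iv (K - k) S3,
      ∑ x2 ∈ (iv K S).filter (fun x2 => Tie k J (o - 2) x0 x1 x2 m), W k x0 x1 x2 *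
        (u x1 x2 ⬝ᵥ eb l K S (Kq x1) (o - 2) x0 x1 k m *ᵥ u x1 x2) ≤
    (2 * J + 1) * e * (2 ^ K * ∑ x1 ∈ Y, ND x1) := by
  refine (plane_dom_al (R := J + 3) (o - 2) X Y
    (f := fun k x0 x1 x2 m => u x1 x2 ⬝ᵥ eb l K S (Kq x1) (o - 2) x0 x1 k m *ᵥ u x1 x2)
    (Φ := fun k q x1 x2 => u x1 x2 ⬝ᵥ ET l K S (Kq x1) k q *ᵥ u x1 x2)
    (fun x1 h1 k _ q x2 => quad_nonneg (ET_psd (hT x1 h1) k q) _)
    (fun x1 h1 k hk x0 x2 m ht => ?_) hW0 hWa hW).trans ?_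
  · have h2 := st_near ho ht
    have h4 := quad_nonneg (eb_le (M := S) (hT x1 h1) (o - 2) x0 x1 k m) (u x1 x2)
    rw [sub_mulVec, dotProduct_sub, add_mulVec, dotProduct_add] at h4
    have hsub : ({st (o - 2) x0 x1 k m / 2 ^ k, st (o - 2) x0 x1 k m / 2 ^ k + 1} : Finset ℤ) ⊆
        Icc (ix k x2 - ((J + 3 : ℕ) : ℤ)) (ix k x2 + ((J + 3 : ℕ) : ℤ)) := by
      intro y hy
      rw [mem_insert, mem_singleton] at hy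
      rw [mem_Icc] at h2 ⊢
      push_cast at h2 ⊢
      omega
    have h5 := sum_le_sum_of_subset_of_nonneg (f := fun q =>
      u x1 x2 ⬝ᵥ ET l K S (Kq x1) k q *ᵥ u x1 x2) hsub
      (fun q _ _ => quad_nonneg (ET_psd (M := S) (hT x1 h1) k q) _)
    rw [sum_pair (by omega)] at h5
    linarith
  · refine mul_le_mul_of_nonneg_left (mul_le_mul_of_nonneg_left (sum_le_sum fun x1 h1 => ?_)
      (by positivity)) (by positivity)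
    rw [sum_Icc_range (K := K)]
    exact hN x1 h1

end planes

section pay

variable {l : ℝ} {K : ℕ} {R S T : ℤ} {G Kq : ℤ → ℕ → ℤ → Matrix ι ι ℝ} {u v : ℤ → ℤ → ι → ℝ}
  {φ : ℕ → Pt → ℝ} {e : ℝ}

/-- **the half differences on the side `b`**, alive cells, plane sums at all `x0` -/
theorem payB_ah_st {o : ℤ} (ho : o = 1 ∨ o = -1) (X : Finset ℤ)
    {al : ℤ → ℕ → ℤ → Prop} [∀ x k, DecidablePred (al x k)] {NB : ℤ → ℝ}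
    (hN : ∀ x ∈ iv K S, ∑ k ∈ range K, ∑ p ∈ (iv (K - (k + 1)) R).filter (al x (k + 1)),
      ∑ m ∈ Icc (p - 3) (p + 3), ∑ y ∈ iv (k + 1) p,
        HdV (fun k q => WT l K R (Kq x) k q *ᵥ u x y) (k + 1) m ≤ NB x)
    (he : 0 ≤ e) (hφ : ∀ k ∈ Icc 1 K, ∀ j x y, ∑ x0 ∈ iv k j, φ k (x0, x, y) ^ 2 ≤ e * 2 ^ k)
    (hφa : ∀ k ∈ Icc 1 K, ∀ x0, ∀ x ∈ iv K S, ∀ y, ¬ al x k (ix k y) → φ k (x0, x, y) = 0)
    {B : ℤ → ℕ → ℤ → ℤ → ι → ℝ}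
    (hB : ∀ x0 ∈ X, ∀ k ∈ Icc 1 K, ∀ x ∈ iv K S, ∀ n ∈ iv (K - k) R, ∀ w : ι → ℝ,
      ∑ y ∈ iv k n, (B x0 k x y ⬝ᵥ w) ^ 2 ≤
        ∑ y ∈ iv k n, φ k (x0, x, y) ^ 2 * (u x y ⬝ᵥ w) ^ 2)
    {F : ℤ → ℤ → ℕ → ℤ → Matrix ι ι ℝ} {g : ℝ} (hg : 0 ≤ g)
    (hF : ∀ x0 ∈ X, ∀ x ∈ iv K S, ∀ k ∈ Icc 1 K, ∀ m, (F x0 x k m).PosSemidef)
    (hFa : ∀ x0 ∈ X, ∀ x ∈ iv K S, ∀ k ∈ Icc 1 K, ∀ m, ∀ w : ι → ℝ, w ⬝ᵥ F x0 x k m *ᵥ w ≤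
      g * ((ah l K R (Kq x) (o - 2) x0 x (k - 1) m *ᵥ w) ⬝ᵥ
        (ah l K R (Kq x) (o - 2) x0 x (k - 1) m *ᵥ w))) :
    ∑ x0 ∈ X, ∑ k ∈ Icc 1 K, GW K R S T k (o - 2 - ix k x0) (fun n n' m =>
      av k n m fun x y => B x0 k x y ⬝ᵥ F x0 x k n' *ᵥ B x0 k x y) ≤
    g * (e * (2 ^ K * ∑ x ∈ iv K S, NB x)) := by
  refine (payB_gen X hB hF (f := fun k x0 x y m =>
    g * ((ah l K R (Kq x) (o - 2) x0 x (k - 1) m *ᵥ u x y) ⬝ᵥ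
      (ah l K R (Kq x) (o - 2) x0 x (k - 1) m *ᵥ u x y)))
    (fun x0 h0 x hx k hk y m => hFa x0 h0 x hx k hk m (u x y)) o).trans ?_
  have h1 := BM_plane_st (J := 0) (S := R) (S3 := T) (l := l) (Kq := Kq) (u := u) (al := al)
    (NB := NB) ho X (iv K S) (fun x hx => by
      have h := hN x hx
      simpa using h)
    (W := fun k x0 x y => φ k (x0, x, y) ^ 2) he (fun _ _ _ _ => sq_nonneg _)
    (fun k hk x0 x hx y hy => by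
      show φ k (x0, x, y) ^ 2 = 0
      rw [hφa k hk x0 x hx y hy]
      norm_num) hφ
  have h2 := mul_le_mul_of_nonneg_left h1 hg
  refine le_trans (le_of_eq ?_) (h2.trans (le_of_eq ?_))
  · rw [mul_sum]
    refine sum_congr rfl fun x0 _ => ?_
    rw [mul_sum]
    refine sum_congr rfl fun x _ => ?_
    rw [mul_sum]
    refine sum_congr rfl fun k _ => ?_
    rw [mul_sum]
    refine sum_congr rfl fun m _ => ?_
    rw [mul_sum]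
    refine sum_congr rfl fun y _ => ?_
    ring
  · push_cast
    ring

/-- **the losses on the side `b`**, alive cells, plane sums at all `x0` -/
theorem payB_eb_st {o : ℤ} (ho : o = 1 ∨ o = -1) (X : Finset ℤ)
    (hT : ∀ x ∈ iv K S, Tr l K (G x) (Kq x))
    {al : ℤ → ℕ → ℤ → Prop} [∀ x k, DecidablePred (al x k)] {ND : ℤ → ℝ}
    (hN : ∀ x ∈ iv K S, ∑ k ∈ range K, ∑ p ∈ (iv (K - (k + 1)) R).filter (al x (k + 1)),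
      ∑ m ∈ Icc (p - 3) (p + 3), ∑ y ∈ iv (k + 1) p,
        u x y ⬝ᵥ ET l K R (Kq x) (k + 1) m *ᵥ u x y ≤ ND x)
    (he : 0 ≤ e) (hφ : ∀ k ∈ Icc 1 K, ∀ j x y, ∑ x0 ∈ iv k j, φ k (x0, x, y) ^ 2 ≤ e * 2 ^ k)
    (hφa : ∀ k ∈ Icc 1 K, ∀ x0, ∀ x ∈ iv K S, ∀ y, ¬ al x k (ix k y) → φ k (x0, x, y) = 0)
    {B : ℤ → ℕ → ℤ → ℤ → ι → ℝ}
    (hB : ∀ x0 ∈ X, ∀ k ∈ Icc 1 K, ∀ x ∈ iv K S, ∀ n ∈ iv (K - k) R, ∀ w : ι → ℝ,
      ∑ y ∈ iv k n, (B x0 k x y ⬝ᵥ w) ^ 2 ≤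
        ∑ y ∈ iv k n, φ k (x0, x, y) ^ 2 * (u x y ⬝ᵥ w) ^ 2)
    {F : ℤ → ℤ → ℕ → ℤ → Matrix ι ι ℝ} {g : ℝ} (hg : 0 ≤ g)
    (hF : ∀ x0 ∈ X, ∀ x ∈ iv K S, ∀ k ∈ Icc 1 K, ∀ m, (F x0 x k m).PosSemidef)
    (hFa : ∀ x0 ∈ X, ∀ x ∈ iv K S, ∀ k ∈ Icc 1 K, ∀ m, ∀ w : ι → ℝ, w ⬝ᵥ F x0 x k m *ᵥ w ≤
      g * (w ⬝ᵥ eb l K R (Kq x) (o - 2) x0 x k m *ᵥ w)) :
    ∑ x0 ∈ X, ∑ k ∈ Icc 1 K, GW K R S T k (o - 2 - ix k x0) (fun n n' m =>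
      av k n m fun x y => B x0 k x y ⬝ᵥ F x0 x k n' *ᵥ B x0 k x y) ≤
    g * (e * (2 ^ K * ∑ x ∈ iv K S, ND x)) := by
  refine (payB_gen X hB hF (f := fun k x0 x y m =>
    g * (u x y ⬝ᵥ eb l K R (Kq x) (o - 2) x0 x k m *ᵥ u x y))
    (fun x0 h0 x hx k hk y m => hFa x0 h0 x hx k hk m (u x y)) o).trans ?_
  have h1 := EB_plane_st (J := 0) (S := R) (S3 := T) (l := l) (G := G) (Kq := Kq) (u := u)
    (al := al) (ND := ND) ho X (iv K S) hT (fun x hx => by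
      have h := hN x hx
      simpa using h)
    (W := fun k x0 x y => φ k (x0, x, y) ^ 2) he (fun _ _ _ _ => sq_nonneg _)
    (fun k hk x0 x hx y hy => by
      show φ k (x0, x, y) ^ 2 = 0
      rw [hφa k hk x0 x hx y hy]
      norm_num) hφ
  have h2 := mul_le_mul_of_nonneg_left h1 hg
  refine le_trans (le_of_eq ?_) (h2.trans (le_of_eq ?_))
  · rw [mul_sum]
    refine sum_congr rfl fun x0 _ => ?_
    rw [mul_sum]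
    refine sum_congr rfl fun x _ => ?_
    rw [mul_sum]
    refine sum_congr rfl fun k _ => ?_
    rw [mul_sum]
    refine sum_congr rfl fun m _ => ?_
    rw [mul_sum]
    refine sum_congr rfl fun y _ => ?_
    ring
  · push_cast
    ring

end pay

end

end Vale.Agent.P141.H7
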